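import Vale.Agent.P352R.Br3
import Vale.Agent.P352R.Cf.WitG

/-!
# P352R: the graded witness satisfies linear energy bounds (helper72)
-/

set_option autoImplicit false
set_option linter.all false

noncomputable section

namespace Vale.Agent.P352R.L72

open P352 GF H246 H15 BW P352X P352W Cf
open P352.ND (PCh)
open P352L.StA (hull sp_of sp_ind)
open UniformSpace (Completion)

/-- the graded witness with the linear energy bound (inner words) -/
theorem witL0 : ∃ (D : Type) (_ : NormedAddCommGroup D) (_ : InnerProductSpace ℂ D)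
    (Q : Theory D) (G : D → D) (T : Ix → Ix → Fld D) (A : (V → V) → D → D)
    (Γ : Completion D →L[ℂ] Completion D) (N : Set V → VonNeumannAlgebra (Completion D)),
      Egr.Lb Q ∧
      Stress0 Q T ∧ PCh Q T A ∧ MfAll Q ∧ FSL Q ∧ LNg Q G A Γ N ∧ L.UVac Q ∧ EBd Q ∧ P.CntF Q ∧
      (∃ φ, Q.IsScalar φ 1 ∧ ∃ f, IsTest f ∧ φ f Q.vac ≠ 0) ∧
      ¬FiniteDimensional ℂ (Completion D) ∧ ∃ f, IsTest f ∧ tr T f Q.vac ≠ 0 := by
  have h := free
  obtain ⟨A, hA⟩ := h.rep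
  obtain ⟨N, hN⟩ := Net.lnm hA h.scalar h.raw h.fil
  obtain ⟨v, n, p⟩ := h.perp hA
  have s := P352H.str (h.stress hA)
  have l := Wg.lb (Q := h.th) (Eb.eb fun _ _ => Fk.Cov.wd_gm one_pos isLor_one)
  have k := Egr.gr (Q := hull h.th) (fun _ a => a) ⟨s.bose, s.symm, s.herm,
    fun m n L a f v => s.cov m n 1 L a f v one_pos, s.conserved, s.charge⟩
    (P352H.pch hA h.fT (h.pch hA)) (P352H.mfa h.mf) (P352H.fsl h.fsl) (P352L.StA.lnm hN) h.uvac l
  rw [Wg.z0_eq (zero_mem _) (zero_mem _)] at k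
  exact ⟨_, _, _, hull h.th, _, _, A, _, N, l, k.1, k.2.1, k.2.2.1, k.2.2.2.1, k.2.2.2.2.1,
    k.2.2.2.2.2.1, k.2.2.2.2.2.2, Wb.free_cntF h, ⟨_, ⟨sp_of h.fp, h.scalar.2⟩, h.nzp⟩,
    nz_dim hA h.uvac n p, h.nz⟩

variable {D : Type*} [NormedAddCommGroup D] [InnerProductSpace ℂ D] {Q : Theory D}
  {A : (V → V) → D → D}

/-- the time translations are differentiable on the domain -/
theorem der (h : P.Gnr Q A) (m : Ix) (v : D) :
    HasDerivAt (fun t : ℝ => Q.U 1 GF.one (bas m t) v) (G.Dv Q m v) 0 := by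
  have := h (fun _ => 1) (fun _ => GF.one) (fun t => bas m t) (fun _ => bas m 1) v rfl rfl
    (funext fun n => by simp [bas]) (fun _ => ⟨one_pos, isLor_one⟩) fun n x => by
      unfold sim bas
      by_cases e : n = m
      · simp only [e, if_true]; exact (hasDerivAt_id (0 : ℝ)).add_const _
      · simp only [e, if_false]; exact hasDerivAt_const (0 : ℝ) _
  exact this.differentiableAt.hasDerivAt

/-- **the graded witness with the linear energy bound**, in the public words -/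
theorem witL : ∃ (D : Type) (_ : NormedAddCommGroup D) (_ : InnerProductSpace ℂ D)
    (Q : Theory D) (g : D → D) (T : Ix → Ix → Fld D) (A : (V → V) → D → D)
    (Γ : Completion D →L[ℂ] Completion D) (N : Set V → VonNeumannAlgebra (Completion D)),
      (∀ B f, Q.fld B → IsTest f → ∃ C : ℝ, ∀ v, ‖B f v‖ ≤ C * (‖v‖ + ‖G.Dv Q o v‖)) ∧
      P.Stress0 Q T ∧ P.PCh Q T A ∧ P.MfA Q ∧ P.FSL Q ∧ G.LNg Q g A Γ N ∧ P.UVac Q ∧ G.EBd Q ∧
      P.CntF Q ∧ (∃ φ, Q.IsScalar φ 1 ∧ ∃ f, IsTest f ∧ φ f Q.vac ≠ 0) ∧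
      ¬FiniteDimensional ℂ (Completion D) ∧ ∃ f, IsTest f ∧ tr T f Q.vac ≠ 0 :=
  have ⟨D, i, j, Q, g, T, A, Γ, N, l, a, b, c, d, e, f, x, h, k⟩ := witL0
  have e := Br.lng.2 e
  ⟨D, i, j, Q, g, T, A, Γ, N, fun B f p q => (l B f p q).imp fun _ r v => r v _ (der e.der o v),
    Br.stress0.2 a, b, Br.mfa.2 c, d, e, f, Br.ebd.2 x, h, k⟩

end Vale.Agent.P352R.L72
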